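import Vale.Agent.P011UGA.IF3
import Vale.Agent.P011UD.Aut

/-!
The choice of the Levi subgroup and of the torus element for the types `B` and `C`.
-/

set_option autoImplicit false
set_option linter.all false

namespace Vale.Agent.P011UY8

open Matrix Vale.Agent.P183CH Vale.Agent.P011U Vale.Agent.P011UP Vale.Agent.P011UGA

/-- Short vectors: two nonzero coordinates are signs and the only ones. -/
def Sh (x : ℕ → ℤ) : Prop := ∀ a b, a ≠ b → x a ≠ 0 → x b ≠ 0 →
  |x a| = 1 ∧ ∀ m, m ≠ a → m ≠ b → x m = 0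

theorem Sh.perm {x x' : ℕ → ℤ} (h : Sh x) (σ : Equiv.Perm ℕ) (e : ∀ m, |x' m| = |x (σ m)|) :
    Sh x' := fun a b hab ha hb => by
  have z : ∀ m, x' m = 0 ↔ x (σ m) = 0 := fun m => by rw [← abs_eq_zero, e, abs_eq_zero]
  obtain ⟨h1, h2⟩ := h _ _ (σ.injective.ne hab) (mt (z a).2 ha) (mt (z b).2 hb)
  exact ⟨(e a).trans h1, fun m h3 h4 => (z m).2 (h2 _ (σ.injective.ne h3) (σ.injective.ne h4))⟩

/-- The coordinates of the simple roots. -/
def E (n : ℕ) (c : ℤ) (k m : ℕ) : ℤ :=
  if m = k then (if k + 1 = n then c else 1) else if m = k + 1 ∧ m < n then -1 else 0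

/-- The Cartan matrix through the coordinates. -/
def Co {n : ℕ} (C : Matrix (Fin n) (Fin n) ℤ) (c d : ℤ) : Prop := c * d = 2 ∧ ∀ k i : Fin n,
  C k i = if i.1 + 1 = n then d * E n c k i else E n c k i - E n c k (i + 1)

theorem coB {n : ℕ} (h : 2 ≤ n) : Co (CartanMatrix.B n) 1 2 := ⟨rfl, fun k i => by
  have := k.2; have := i.2
  simp only [CartanMatrix.B, of_apply, E, Fin.ext_iff]
  split_ifs <;> omega⟩

theorem coC {n : ℕ} (h : 2 ≤ n) : Co (CartanMatrix.C n) 2 1 := ⟨rfl, fun k i => by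
  have := k.2; have := i.2
  simp only [CartanMatrix.C, of_apply, E, Fin.ext_iff]
  split_ifs <;> omega⟩

variable {R : RS} {n : ℕ} {C : Matrix (Fin n) (Fin n) ℤ} {e : Fin R.r ≃ Fin n} {c d : ℤ}

/-- The coordinates of a vector. -/
def X (e : Fin R.r ≃ Fin n) (c : ℤ) (γ : R.Q) (m : ℕ) : ℤ := ∑ k, γ k * E n c (e k) m

theorem X_α (i : Fin R.r) (m : ℕ) : X e c (R.α i) m = E n c (e i) m := by
  simp [X, RS.α, Pi.single_apply]

theorem X_s (i : Fin R.r) (γ : R.Q) (m : ℕ) :
    X e c (R.s i γ) m = X e c γ m - R.pr γ i * E n c (e i) m := by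
  rw [← X_α]
  simp only [X, RS.s, Pi.sub_apply, Pi.smul_apply, smul_eq_mul, sub_mul, Finset.sum_sub_distrib,
    Finset.mul_sum, mul_assoc]

theorem pr_X (t : Ty R C e) (h : Co C c d) (γ : R.Q) (i : Fin R.r) : R.pr γ i =
    if (e i).1 + 1 = n then d * X e c γ (e i) else X e c γ (e i) - X e c γ (e i + 1) := by
  simp only [RS.pr, vecMul, dotProduct, t _ _, h.2, X]
  split_ifs
  · simp only [Finset.mul_sum, mul_left_comm]
  · simp only [mul_sub, Finset.sum_sub_distrib]

theorem sh (hR : R.Ok) (t : Ty R C e) (h : Co C c d) {γ : R.Q} (hγ : γ ∈ R.Φ) : Sh (X e c γ) := by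
  obtain ⟨l, i, rfl⟩ := hR.conj γ hγ
  clear hγ
  induction l with
  | nil =>
    intro a b hab
    simp only [List.foldr_nil, X_α, E]
    refine fun h1 h2 => ⟨?_, fun m h3 h4 => ?_⟩ <;> split_ifs at * <;> first | rfl | omega
  | cons j l ih =>
    rw [List.foldr_cons]
    generalize l.foldr R.s (R.α i) = δ at ih
    have := (e j).2
    by_cases hj : (e j).1 + 1 = n
    · refine ih.perm 1 fun m => ?_
      rw [X_s, pr_X t h, if_pos hj, E, if_pos hj, Equiv.Perm.one_apply]
      split_ifs with h1 h2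
      · rw [h1, ← abs_neg]; congr 1; linear_combination X e c δ (e j) * h.1
      · omega
      · simp
    · refine ih.perm (Equiv.swap (e j).1 ((e j).1 + 1)) fun m => ?_
      rw [X_s, pr_X t h, if_neg hj, E, if_neg hj]
      split_ifs with h1 h2
      · rw [h1, Equiv.swap_apply_left]; congr 1; ring
      · rw [h2.1, Equiv.swap_apply_right]; congr 1; ring
      · rw [Equiv.swap_apply_of_ne_of_ne h1 (by omega)]; simp

theorem X_inj (hR : R.Ok) (t : Ty R C e) (h : Co C c d) {γ δ : R.Q} (hx : X e c γ = X e c δ) :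
    γ = δ := by
  refine sub_eq_zero.1 (eq_zero_of_vecMul_eq_zero hR.det ?_)
  rw [sub_vecMul, sub_eq_zero]
  funext i
  exact (pr_X t h γ i).trans (hx ▸ (pr_X t h δ i).symm)

open Classical in
theorem cnt {α : Type} (S T : Finset α) {a b : α} (hab : a ≠ b) (ha : a ∈ T \ S) (hb : b ∈ T \ S)
    (h : (S \ T).card ≤ 4) {r : ℕ} (hr : 3 ≤ r) : S.card < r + T.card := by
  have h1 := Finset.card_sdiff_add_card_inter S T
  have h2 := Finset.card_sdiff_add_card_inter T S
  have h3 := Finset.one_lt_card.2 ⟨a, ha, b, hb, hab⟩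
  rw [Finset.inter_comm] at h2
  omega

theorem cho (hR : R.Ok) {C : Matrix (Fin (n + 3)) (Fin (n + 3)) ℤ} {e : Fin R.r ≃ Fin (n + 3)}
    (t : Ty R C e) (h : Co C c d) (hp : ∀ p, Dg R p → p = 1)
    (hs : Big (C.submatrix Fin.succ Fin.succ) ∨
      Tm (C.submatrix Fin.succ Fin.succ) (CartanMatrix.B 2)) : Cho R := by
  classical
  intro p hd _
  obtain rfl := hp p hd
  have c0 : c ≠ 0 := fun h' => by have := h.1; rw [h'] at this; omega
  have d0 : d ≠ 0 := fun h' => by have := h.1; rw [h'] at this; omega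
  let l := e.symm (Fin.last _)
  let l' := e.symm ⟨n + 1, by omega⟩
  have el : (e l).1 = n + 2 := by simp [l]
  have el' : (e l').1 = n + 1 := by simp [l']
  have ne : ∀ i, i ≠ e.symm 0 ↔ (e i).1 ≠ 0 := fun i => by
    rw [ne_eq, ← e.apply_eq_iff_eq_symm_apply, Fin.ext_iff]; rfl
  have hw : ∀ γ, pw (Pi.single l 1) γ = d * X e c γ (n + 2) := fun γ => by
    rw [← el, ← (if_pos (by omega) : ite ((e l).1 + 1 = n + 3) (d * X e c γ (e l)) _ = _),
      ← pr_X t h]
    simp [pw, Pi.single_apply]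
  have x0 : ∀ γ : R.Q, X e c γ 0 = γ (e.symm 0) := fun γ => by
    rw [X, Finset.sum_eq_single (e.symm 0)]
    · simp [E]
    · intro i _ hi
      rw [E, if_neg (fun h => (ne i).1 hi h.symm), if_neg (by omega), mul_zero]
    · simp
  have hI : ∀ γ : R.Q, R.In {i | i ≠ e.symm 0} γ ↔ X e c γ 0 = 0 := fun γ => by
    simp [RS.In, x0]
  refine ⟨e.symm 0, Pi.single l 1, 0, rfl, fun _ => rfl, .inl rfl, ⟨l, (ne _).2 (by omega), ?_⟩,
    ?_, ?_, n + 2, ⟨fun i => e.symm i.succ, e.symm.injective.comp (Fin.succ_injective _)⟩, ?_, ?_⟩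
  · rw [zero_dvd_iff, hw, X_α, el]
    simp [E, c0, d0]
  · have hb := hR.refl l' _ (hR.simple l)
    have b1 : ∀ m, X e c (R.s l' (R.α l)) m = if m = n + 1 then c else 0 := fun m => by
      simp only [X_s, pr_X t h, X_α, el, el', E]
      split_ifs <;> first | omega | simp
    have b2 : ∀ m, X e c (-R.s l' (R.α l)) m = -X e c (R.s l' (R.α l)) m := fun m => by
      simp [X]
    refine cnt _ _ (a := R.s l' (R.α l)) (b := -R.s l' (R.α l)) (fun h' => ?_) ?_ ?_ ?_ ?_
    · have := b2 (n + 1)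
      rw [← h', b1, if_pos rfl] at this
      omega
    · simp [hb, hI, hw, b1]
    · simp [hR.neg_mem hb, hI, hw, b1, b2]
    · refine (Finset.card_le_card_of_injOn (t := ({1, -1} : Finset ℤ) ×ˢ ({1, -1} : Finset ℤ))
        (fun γ => (X e c γ 0, X e c γ (n + 2))) (fun γ hγ => ?_) fun γ hγ δ hδ hh => ?_).trans
        (by decide)
      · simp only [Finset.coe_sdiff, Finset.coe_filter, Set.mem_diff, Set.mem_setOf_eq, hI, hw,
          zero_dvd_iff, mul_eq_zero, not_or, not_and] at hγ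
        have k := sh hR t h hγ.1.1
        have k1 := (k 0 (n + 2) (by omega) (hγ.2 hγ.1.1) hγ.1.2.2).1
        have k2 := (k (n + 2) 0 (by omega) hγ.1.2.2 (hγ.2 hγ.1.1)).1
        simp only [Finset.coe_product, Set.mem_prod, Finset.coe_insert, Finset.coe_singleton,
          Set.mem_insert_iff, Set.mem_singleton_iff]
        exact ⟨eq_or_eq_neg_of_abs_eq k1, eq_or_eq_neg_of_abs_eq k2⟩
      · simp only [Finset.coe_sdiff, Finset.coe_filter, Set.mem_diff, Set.mem_setOf_eq, hI, hw,
          zero_dvd_iff, mul_eq_zero, not_or, not_and] at hγ hδ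
        have k1 := (sh hR t h hγ.1.1 0 (n + 2) (by omega) (hγ.2 hγ.1.1) hγ.1.2.2).2
        have k2 := (sh hR t h hδ.1.1 0 (n + 2) (by omega) (hδ.2 hδ.1.1) hδ.1.2.2).2
        refine X_inj hR t h (funext fun m => ?_)
        by_cases h1 : m = 0
        · exact h1 ▸ congrArg Prod.fst hh
        by_cases h2 : m = n + 2
        · exact h2 ▸ congrArg Prod.snd hh
        rw [k1 m h1 h2, k2 m h1 h2]
    · have := Fintype.card_congr e
      simp at this; omega
  · intro P i hi j hj hP st
    have adj : ∀ a b, (e a).1 + 1 = (e b).1 → R.A a b ≠ 0 ∧ R.A b a ≠ 0 := fun a b hab => by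
      have := (e b).2
      simp only [t _ _, h.2, E]
      constructor <;> split_ifs <;> first | omega | simp [c0, d0]
    have key : ∀ m a, (e a).1 = m + 1 → (P a ↔ P (e.symm 1)) := fun m => by
      induction m with
      | zero => intro a ha; rw [show a = e.symm 1 from e.eq_symm_apply.2 (Fin.ext ha)]
      | succ m ih =>
        intro a ha
        have := (e a).2
        let b := e.symm ⟨m + 1, by omega⟩
        have eb : (e b).1 = m + 1 := by simp [b]
        have na : a ≠ e.symm 0 := (ne _).2 (by omega)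
        have nb : b ≠ e.symm 0 := (ne _).2 (by omega)
        have := adj b a (by omega)
        exact Iff.trans ⟨fun q => st a na b nb q this.1, fun q => st b nb a na q this.2⟩ (ih b eb)
    have h1 := (ne i).1 hi
    have h2 := (ne j).1 hj
    exact (key ((e j).1 - 1) j (by omega)).2 ((key ((e i).1 - 1) i (by omega)).1 hP)
  · ext i
    simp only [Set.mem_range, Function.Embedding.coeFn_mk, Set.mem_setOf_eq, ne_eq,
      e.symm_apply_eq, ← e.apply_eq_iff_eq_symm_apply]
    exact Fin.exists_succ_eq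
  · have : R.A.submatrix (fun i : Fin (n + 2) => e.symm i.succ) (fun i => e.symm i.succ) =
        C.submatrix Fin.succ Fin.succ := by
      ext a b; simp [t _ _]
    show Big (R.A.submatrix (fun i : Fin (n + 2) => e.symm i.succ) fun i => e.symm i.succ) ∨
      Tm (R.A.submatrix (fun i : Fin (n + 2) => e.symm i.succ) fun i => e.symm i.succ) _ ∨ _
    rw [this]
    exact hs.imp_right .inl

theorem subB : (CartanMatrix.B (n + 3)).submatrix Fin.succ Fin.succ = CartanMatrix.B (n + 2) := by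
  ext a b
  simp only [CartanMatrix.B, submatrix_apply, of_apply, Fin.ext_iff, Fin.val_succ]
  split_ifs <;> omega

theorem subC : (CartanMatrix.C (n + 3)).submatrix Fin.succ Fin.succ = CartanMatrix.C (n + 2) := by
  ext a b
  simp only [CartanMatrix.C, submatrix_apply, of_apply, Fin.ext_iff, Fin.val_succ]
  split_ifs <;> omega

theorem cmb : CMB := fun R hR n hn ⟨e, t⟩ => by
  obtain ⟨n, rfl⟩ := Nat.exists_eq_add_of_le' hn
  refine cho hR t (coB (by omega)) (fun p hp => pc_one (P011UD.autB (by omega) (Ty.au t hp))) ?_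
  rw [subB]
  cases n with
  | zero => exact .inr ⟨Equiv.refl _, fun _ _ => rfl⟩
  | succ n => exact .inl (.inl ⟨_, by omega, Equiv.refl _, fun _ _ => rfl⟩)

theorem cmc : CMC := fun R hR n hn ⟨e, t⟩ => by
  obtain ⟨n, rfl⟩ := Nat.exists_eq_add_of_le' hn
  refine cho hR t (coC (by omega)) (fun p hp => pc_one (P011UD.autC (by omega) (Ty.au t hp))) ?_
  rw [subC]
  cases n with
  | zero => exact .inr ⟨Equiv.swap (0 : Fin 2) 1, fun i j => by fin_cases i <;> fin_cases j <;> rfl⟩
  | succ n => exact .inl (.inr (.inl ⟨_, by omega, Equiv.refl _, fun _ _ => rfl⟩))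

end Vale.Agent.P011UY8
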